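import Vale.Agent.P038.H177.Gap

/-!
# Inner and outer minimisation problems (helper787's proof)
-/

set_option autoImplicit false
set_option linter.unusedSectionVars false

open Finset

namespace Vale.Agent.P038.H177

variable {V : Type*} [Fintype V] [DecidableEq V]

/-- Reflexive closure of the arcs. -/
def Rr (D : V → V → Prop) (a z : V) : Prop := a = z ∨ D a z

open scoped Classical in
/-- Closed out-neighbourhood. -/
noncomputable def N (D : V → V → Prop) (X : Finset V) : Finset V :=
  univ.filter (fun y => ∃ x ∈ X, Rr D x y)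

theorem mem_N {D : V → V → Prop} {X : Finset V} {y : V} : y ∈ N D X ↔ ∃ x ∈ X, Rr D x y := by
  simp [N]

theorem subset_N (D : V → V → Prop) (X : Finset V) : X ⊆ N D X := fun x hx =>
  mem_N.2 ⟨x, hx, Or.inl rfl⟩

theorem N_mono {D : V → V → Prop} {X Y : Finset V} (h : X ⊆ Y) : N D X ⊆ N D Y := fun y hy => by
  obtain ⟨x, hx, hxy⟩ := mem_N.1 hy
  exact mem_N.2 ⟨x, h hx, hxy⟩

theorem N_union (D : V → V → Prop) (X Y : Finset V) : N D (X ∪ Y) = N D X ∪ N D Y := by
  ext y
  simp only [mem_N, mem_union]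
  constructor
  · rintro ⟨x, hx | hx, hxy⟩
    · exact Or.inl ⟨x, hx, hxy⟩
    · exact Or.inr ⟨x, hx, hxy⟩
  · rintro (⟨x, hx, hxy⟩ | ⟨x, hx, hxy⟩)
    · exact ⟨x, Or.inl hx, hxy⟩
    · exact ⟨x, Or.inr hx, hxy⟩

/-- Size of the boundary. -/
noncomputable def hh (D : V → V → Prop) (X : Finset V) : ℤ := ((N D X).card : ℤ) - X.card

theorem hh_sub (D : V → V → Prop) (X Y : Finset V) :
    hh D (X ∪ Y) + hh D (X ∩ Y) ≤ hh D X + hh D Y := by
  unfold hh
  have h1 := card_union_add_card_inter X Y
  have h2 := card_union_add_card_inter (N D X) (N D Y)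
  have h3 : (N D (X ∩ Y)).card ≤ (N D X ∩ N D Y).card :=
    card_le_card (subset_inter (N_mono inter_subset_left) (N_mono inter_subset_right))
  rw [N_union]
  push_cast [← Nat.cast_inj (R := ℤ)] at h1 h2
  have h3' : ((N D (X ∩ Y)).card : ℤ) ≤ (N D X ∩ N D Y).card := by exact_mod_cast h3
  linarith

/-- Outer problem: admissible pairs. -/
structure Outer (D : V → V → Prop) (B U : V → Finset V) : Prop where
  nb : ∀ a z, Rr D a z → z ∈ B a
  bu : ∀ a, B a ⊆ U a
  rev : ∀ y a, D y a → y ∉ U a

/-- Outer cost. -/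
noncomputable def cost2 (D : V → V → Prop) (B U : V → Finset V) : ℤ :=
  ∑ a, hh D (B a) + ∑ a, ((U a).card : ℤ) - ∑ z, ((meet (Rr D) U z).card : ℤ)

/-- Inner problem: admissible pairs. -/
structure Inner (D : V → V → Prop) (X Y : V → Finset V) : Prop where
  sx : ∀ a, a ∈ X a
  sy : ∀ b, b ∈ Y b
  orth : ∀ a b, b ∈ N D (X a) → a ∈ N D (Y b) → a = b

/-- Inner cost. -/
noncomputable def cost1 (D : V → V → Prop) (X Y : V → Finset V) : ℤ :=
  ∑ a, hh D (X a) + ∑ b, hh D (Y b)

section Min

variable {D : V → V → Prop} {B U : V → Finset V}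

theorem row_min (hO : Outer D B U)
    (hmin : ∀ B' U' : V → Finset V, Outer D B' U' → cost2 D B U ≤ cost2 D B' U')
    (a : V) (Y : Finset V) (h1 : B a ⊆ Y) (h2 : Y ⊆ U a) : hh D (B a) ≤ hh D Y := by
  have hO' : Outer D (Function.update B a Y) U := by
    refine ⟨fun c z hcz => ?_, fun c => ?_, hO.rev⟩
    · by_cases hc : c = a
      · subst hc
        rw [Function.update_self]
        exact h1 (hO.nb c z hcz)
      · rw [Function.update_of_ne hc]
        exact hO.nb c z hcz
    · by_cases hc : c = a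
      · subst hc
        rw [Function.update_self]
        exact h2
      · rw [Function.update_of_ne hc]
        exact hO.bu c
  have h3 := hmin _ _ hO'
  unfold cost2 at h3
  have h4 : ∑ c, hh D (Function.update B a Y c) + hh D (B a) = ∑ c, hh D (B c) + hh D Y := by
    have e1 : ∑ c, hh D (Function.update B a Y c) =
        hh D Y + ∑ c ∈ univ.erase a, hh D (B c) := by
      rw [← add_sum_erase univ _ (mem_univ a), Function.update_self]
      congr 1
      exact sum_congr rfl fun c hc => by rw [Function.update_of_ne (ne_of_mem_erase hc)]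
    have e2 : ∑ c, hh D (B c) = hh D (B a) + ∑ c ∈ univ.erase a, hh D (B c) :=
      (add_sum_erase univ _ (mem_univ a)).symm
    rw [e1, e2]
    ring
  linarith

open scoped Classical in
theorem col_min (hO : Outer D B U)
    (hmin : ∀ B' U' : V → Finset V, Outer D B' U' → cost2 D B U ≤ cost2 D B' U')
    (b : V) (S : Finset V) (hS : ∀ a ∈ S, b ∈ U a ∧ b ∉ B a) :
    S.card ≤ (univ.filter (fun z => (∃ a ∈ S, Rr D a z) ∧ b ∈ meet (Rr D) U z)).card := by
  set U' : V → Finset V := fun a => if a ∈ S then (U a).erase b else U a with hU'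
  set T := univ.filter (fun z => (∃ a ∈ S, Rr D a z) ∧ b ∈ meet (Rr D) U z) with hT
  have hO' : Outer D B U' := by
    refine ⟨hO.nb, fun a => ?_, fun y a hya hy => hO.rev y a hya ?_⟩
    · by_cases ha : a ∈ S
      · simp only [hU', if_pos ha]
        exact fun x hx => mem_erase.2 ⟨fun hxb => (hS a ha).2 (hxb ▸ hx), hO.bu a hx⟩
      · simp only [hU', if_neg ha]
        exact hO.bu a
    · by_cases ha : a ∈ S
      · simp only [hU', if_pos ha] at hy
        exact mem_of_mem_erase hy
      · simp only [hU', if_neg ha] at hy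
        exact hy
  have h3 := hmin _ _ hO'
  unfold cost2 at h3
  have h4 : ∑ a, ((U' a).card : ℤ) = ∑ a, ((U a).card : ℤ) - S.card := by
    have e1 : ∀ a, ((U' a).card : ℤ) = (U a).card - (if a ∈ S then 1 else 0) := by
      intro a
      by_cases ha : a ∈ S
      · simp only [hU', if_pos ha]
        have := card_erase_add_one (hS a ha).1
        have h' : ((((U a).erase b).card + 1 : ℕ) : ℤ) = (U a).card := by exact_mod_cast this
        push_cast at h'
        linarith
      · simp only [hU', if_neg ha, sub_zero]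
    rw [sum_congr rfl fun a _ => e1 a, sum_sub_distrib]
    congr 1
    simp
  have h5 : ∑ z, ((meet (Rr D) U z).card : ℤ) - T.card ≤ ∑ z, ((meet (Rr D) U' z).card : ℤ) := by
    have e1 : ∀ z, ((meet (Rr D) U z).card : ℤ) - (if z ∈ T then 1 else 0) ≤
        ((meet (Rr D) U' z).card : ℤ) := by
      intro z
      by_cases hz : z ∈ T
      · rw [if_pos hz]
        have e2 : (meet (Rr D) U z).erase b ⊆ meet (Rr D) U' z := by
          intro x hx
          rw [mem_erase] at hx
          refine mem_meet.2 fun a ha => ?_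
          by_cases haS : a ∈ S
          · simp only [hU', if_pos haS]
            exact mem_erase.2 ⟨hx.1, mem_meet.1 hx.2 a ha⟩
          · simp only [hU', if_neg haS]
            exact mem_meet.1 hx.2 a ha
        have e3 := card_le_card e2
        have e4 := pred_card_le_card_erase (s := meet (Rr D) U z) (a := b)
        have e5 : (meet (Rr D) U z).card ≤ (meet (Rr D) U' z).card + 1 := by omega
        have : ((meet (Rr D) U z).card : ℤ) ≤ (meet (Rr D) U' z).card + 1 := by exact_mod_cast e5
        linarith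
      · rw [if_neg hz, sub_zero]
        have e2 : meet (Rr D) U z ⊆ meet (Rr D) U' z := by
          intro x hx
          refine mem_meet.2 fun a ha => ?_
          by_cases haS : a ∈ S
          · simp only [hU', if_pos haS]
            refine mem_erase.2 ⟨fun hxb => hz ?_, mem_meet.1 hx a ha⟩
            rw [hT, mem_filter]
            exact ⟨mem_univ _, ⟨a, haS, ha⟩, hxb ▸ hx⟩
          · simp only [hU', if_neg haS]
            exact mem_meet.1 hx a ha
        exact_mod_cast card_le_card e2
    have e6 := sum_le_sum fun z (_ : z ∈ (univ : Finset V)) => e1 z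
    rw [sum_sub_distrib] at e6
    have e7 : ∑ z, (if z ∈ T then (1 : ℤ) else 0) = T.card := by simp
    rw [e7] at e6
    exact e6
  have h6 : (S.card : ℤ) ≤ T.card := by linarith
  exact_mod_cast h6

open scoped Classical in
/-- The second family of the candidate. -/
noncomputable def Yc (D : V → V → Prop) (U : V → Finset V) (x : V) : Finset V :=
  univ.filter (fun z => z = x ∨ x ∉ N D (U z))

theorem mem_Yc {x z : V} : z ∈ Yc D U x ↔ z = x ∨ x ∉ N D (U z) := by
  simp [Yc]

open scoped Classical in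
/-- Double counting. -/
theorem card_rows_cols (P : V → Finset V) :
    ∑ z, ((P z).card : ℤ) = ∑ x, ((univ.filter (fun z => x ∈ P z)).card : ℤ) := by
  have h1 : ∀ z, ((P z).card : ℤ) = ∑ x, if x ∈ P z then (1 : ℤ) else 0 := by
    intro z
    simp
  have h2 : ∀ x, ((univ.filter (fun z => x ∈ P z)).card : ℤ) =
      ∑ z, if x ∈ P z then (1 : ℤ) else 0 := by
    intro x
    rw [card_filter]
    push_cast
    rfl
  rw [sum_congr rfl fun z _ => h1 z, sum_congr rfl fun x _ => h2 x, sum_comm]

theorem mem_meet_self (hO : Outer D B U) (z : V) : z ∈ meet (Rr D) U z :=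
  mem_meet.2 fun a ha => hO.bu a (hO.nb a z ha)

/-- No reversed arcs in `N[M_z]`. -/
theorem not_rev (hO : Outer D B U) (_hD : ∀ u v, D u v → ¬ D v u) {x z : V}
    (hx : x ∈ N D (meet (Rr D) U z)) (hxz : D x z) : False := by
  obtain ⟨u, hu, hux⟩ := mem_N.1 hx
  rcases hux with rfl | hux
  · exact hO.rev u z hxz (mem_meet.1 hu z (Or.inl rfl))
  · exact hO.rev u x hux (mem_meet.1 hu x (Or.inr hxz))

theorem inner_candidate (hO : Outer D B U) : Inner D (meet (Rr D) B) (Yc D U) := by
  refine ⟨fun a => mem_meet.2 fun c hc => hO.nb c a hc, fun b => mem_Yc.2 (Or.inl rfl),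
    fun a b hb ha => ?_⟩
  by_contra hab
  obtain ⟨x, hx, hxb⟩ := mem_N.1 hb
  obtain ⟨y, hy, hya⟩ := mem_N.1 ha
  rcases mem_Yc.1 hy with rfl | hy
  · -- y = b
    rcases hya with h | hya
    · exact hab h.symm
    · rcases hxb with rfl | hxb
      · exact hO.rev x a hya (hO.bu a (mem_meet.1 hx a (Or.inl rfl)))
      · exact hO.rev x y hxb (hO.bu y (mem_meet.1 hx y (Or.inr hya)))
  · exact hy (mem_N.2 ⟨x, hO.bu y (mem_meet.1 hx y hya), hxb⟩)

open scoped Classical in
theorem hh_Yc_le (hO : Outer D B U) (hD : ∀ u v, D u v → ¬ D v u) (x : V) :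
    hh D (Yc D U x) ≤ ((univ.filter (fun z => x ∈ N D (U z))).card : ℤ) -
      ((univ.filter (fun z => x ∈ N D (meet (Rr D) U z))).card : ℤ) := by
  have hxU : x ∈ N D (U x) := subset_N D _ (hO.bu x (hO.nb x x (Or.inl rfl)))
  have hxM : x ∈ N D (meet (Rr D) U x) := subset_N D _ (mem_meet_self hO x)
  -- card of `Yc`
  have e1 : (Yc D U x).card + (univ.filter (fun z => x ∈ N D (U z))).card =
      Fintype.card V + 1 := by
    have h1 : Yc D U x = insert x (univ.filter (fun z => ¬ x ∈ N D (U z))) := by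
      ext z
      rw [mem_Yc, mem_insert, mem_filter]
      simp
    have h2 : x ∉ univ.filter (fun z => ¬ x ∈ N D (U z)) := by
      rw [mem_filter, not_and, not_not]
      exact fun _ => hxU
    rw [h1, card_insert_of_notMem h2]
    have h3 := card_filter_add_card_filter_not (s := (univ : Finset V))
      (p := fun z => x ∈ N D (U z))
    rw [card_univ] at h3
    omega
  have e2 : (N D (Yc D U x)).card + (univ.filter (fun z => x ∈ N D (meet (Rr D) U z))).card ≤
      Fintype.card V + 1 := by
    have h1 : ((univ.filter (fun z => x ∈ N D (meet (Rr D) U z))).erase x) ⊆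
        (N D (Yc D U x))ᶜ := by
      intro z hz
      rw [mem_erase, mem_filter] at hz
      rw [mem_compl]
      intro hzN
      obtain ⟨y, hy, hyz⟩ := mem_N.1 hzN
      obtain ⟨hzx, -, hxz⟩ := hz
      rcases mem_Yc.1 hy with rfl | hy
      · rcases hyz with h | hyz
        · exact hzx h.symm
        · exact not_rev hO hD hxz hyz
      · obtain ⟨u, hu, hux⟩ := mem_N.1 hxz
        exact hy (mem_N.2 ⟨u, mem_meet.1 hu y hyz, hux⟩)
    have h2 := card_le_card h1
    rw [card_compl] at h2
    have h3 := card_erase_add_one (s := univ.filter (fun z => x ∈ N D (meet (Rr D) U z)))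
      (a := x) (mem_filter.2 ⟨mem_univ _, hxM⟩)
    have h4 := card_le_univ (N D (Yc D U x))
    omega
  unfold hh
  have e1' : ((Yc D U x).card : ℤ) + (univ.filter (fun z => x ∈ N D (U z))).card =
      Fintype.card V + 1 := by exact_mod_cast e1
  have e2' : ((N D (Yc D U x)).card : ℤ) +
      (univ.filter (fun z => x ∈ N D (meet (Rr D) U z))).card ≤ Fintype.card V + 1 := by
    exact_mod_cast e2
  linarith

/-- The candidate costs at most the outer minimum. -/
theorem cost1_le (hO : Outer D B U) (hD : ∀ u v, D u v → ¬ D v u)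
    (hmin : ∀ B' U' : V → Finset V, Outer D B' U' → cost2 D B U ≤ cost2 D B' U') :
    cost1 D (meet (Rr D) B) (Yc D U) ≤ cost2 D B U := by
  classical
  have hgap := gap (Rr D) (hh D) (hh_sub D) B U hO.bu (fun a Y => row_min hO hmin a Y)
    (fun b S hS => by
      have := col_min hO hmin b S hS
      convert this)
  have h1 : ∑ x, hh D (Yc D U x) ≤ ∑ z, ((N D (U z)).card : ℤ) -
      ∑ z, ((N D (meet (Rr D) U z)).card : ℤ) := by
    rw [card_rows_cols (fun z => N D (U z)), card_rows_cols (fun z => N D (meet (Rr D) U z)),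
      ← sum_sub_distrib]
    exact sum_le_sum fun x _ => hh_Yc_le hO hD x
  have h2 : ∑ z, ((N D (U z)).card : ℤ) = ∑ a, hh D (U a) + ∑ a, ((U a).card : ℤ) := by
    rw [← sum_add_distrib]
    exact sum_congr rfl fun a _ => by unfold hh; ring
  have h3 : ∑ z, ((N D (meet (Rr D) U z)).card : ℤ) =
      ∑ z, hh D (meet (Rr D) U z) + ∑ z, ((meet (Rr D) U z).card : ℤ) := by
    rw [← sum_add_distrib]
    exact sum_congr rfl fun a _ => by unfold hh; ring
  rw [sum_sub_distrib, sum_sub_distrib] at hgap
  unfold cost1 cost2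
  rw [h2, h3] at h1
  linarith

end Min

section Push

variable {D : V → V → Prop} {X Y : V → Finset V}

open scoped Classical in
/-- Complement relation of the second family. -/
noncomputable def Uc (D : V → V → Prop) (Y : V → Finset V) (a : V) : Finset V :=
  univ.filter (fun x => x = a ∨ a ∉ N D (Y x))

theorem mem_Uc {a x : V} : x ∈ Uc D Y a ↔ x = a ∨ a ∉ N D (Y x) := by
  simp [Uc]

theorem outer_push (hI : Inner D X Y) (hD : ∀ u v, D u v → ¬ D v u) :
    Outer D (fun a => N D (X a)) (Uc D Y) := by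
  refine ⟨fun a z haz => mem_N.2 ⟨a, hI.sx a, haz⟩, fun a b hb => ?_, fun y a hya hy => ?_⟩
  · rw [mem_Uc]
    by_cases hab : b = a
    · exact Or.inl hab
    · exact Or.inr fun ha => hab (hI.orth a b hb ha).symm
  · rcases mem_Uc.1 hy with rfl | hy
    · exact hD y y hya hya
    · exact hy (mem_N.2 ⟨y, hI.sy y, Or.inr hya⟩)

open scoped Classical in
theorem cost2_push (hI : Inner D X Y) (hD : ∀ u v, D u v → ¬ D v u) :
    cost2 D (fun a => N D (X a)) (Uc D Y) ≤
      ∑ a, hh D (N D (X a)) + ∑ b, hh D (N D (Y b)) := by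
  unfold cost2
  rw [card_rows_cols (Uc D Y), card_rows_cols (meet (Rr D) (Uc D Y)), add_sub_assoc,
    ← sum_sub_distrib]
  refine add_le_add le_rfl (sum_le_sum fun x _ => ?_)
  have hx : x ∈ N D (Y x) := subset_N D _ (hI.sy x)
  have hx2 : x ∈ N D (N D (Y x)) := subset_N D _ hx
  have e1 : (univ.filter (fun a => x ∈ Uc D Y a)).card + (N D (Y x)).card =
      Fintype.card V + 1 := by
    have h1 : univ.filter (fun a => x ∈ Uc D Y a) = insert x (N D (Y x))ᶜ := by
      ext a
      rw [mem_filter, mem_Uc, mem_insert, mem_compl]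
      simp only [mem_univ, true_and]
      exact or_congr ⟨Eq.symm, Eq.symm⟩ Iff.rfl
    rw [h1, card_insert_of_notMem (by rw [mem_compl, not_not]; exact hx), card_compl]
    have := card_le_univ (N D (Y x))
    omega
  have e2 : Fintype.card V + 1 ≤ (univ.filter (fun z => x ∈ meet (Rr D) (Uc D Y) z)).card +
      (N D (N D (Y x))).card := by
    have h1 : insert x (N D (N D (Y x)))ᶜ ⊆
        univ.filter (fun z => x ∈ meet (Rr D) (Uc D Y) z) := by
      intro z hz
      rw [mem_filter]
      refine ⟨mem_univ _, mem_meet.2 fun a ha => mem_Uc.2 ?_⟩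
      rw [mem_insert, mem_compl] at hz
      rcases hz with rfl | hz
      · rcases ha with rfl | ha
        · exact Or.inl rfl
        · refine Or.inr fun haN => ?_
          have h2 := hI.orth a z (mem_N.2 ⟨a, hI.sx a, Or.inr ha⟩) haN
          subst h2
          exact hD a a ha ha
      · exact Or.inr fun haN => hz (mem_N.2 ⟨a, haN, ha⟩)
    have h2 := card_le_card h1
    rw [card_insert_of_notMem (by rw [mem_compl, not_not]; exact hx2), card_compl] at h2
    have := card_le_univ (N D (N D (Y x)))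
    omega
  unfold hh
  have e1' : ((univ.filter (fun a => x ∈ Uc D Y a)).card : ℤ) + (N D (Y x)).card =
      Fintype.card V + 1 := by exact_mod_cast e1
  have e2' : (Fintype.card V : ℤ) + 1 ≤
      (univ.filter (fun z => x ∈ meet (Rr D) (Uc D Y) z)).card + (N D (N D (Y x))).card := by
    exact_mod_cast e2
  linarith

end Push

/-- The contradiction: `(G)` cannot hold for an oriented relation with positive out-degrees. -/
theorem no_G [Nonempty V] {D : V → V → Prop} (hD : ∀ u v, D u v → ¬ D v u)
    (hout : ∀ v, ∃ u, D v u)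
    (hG : ∀ X : Finset V, N D X ≠ X → hh D (N D X) < hh D X) : False := by
  classical
  have hG' : ∀ X : Finset V, hh D (N D X) ≤ hh D X := by
    intro X
    by_cases h : N D X = X
    · rw [h]
    · exact (hG X h).le
  -- the outer minimiser
  obtain ⟨⟨B, U⟩, hO, hmin2⟩ := Set.exists_min_image
    {p : (V → Finset V) × (V → Finset V) | Outer D p.1 p.2} (fun p => cost2 D p.1 p.2)
    (Set.toFinite _) ⟨(fun a => N D {a}, fun a => N D {a}), by
      refine ⟨fun a z haz => mem_N.2 ⟨a, mem_singleton_self a, haz⟩, fun a => subset_rfl,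
        fun y a hya hy => ?_⟩
      obtain ⟨x, hx, hxy⟩ := mem_N.1 hy
      rw [mem_singleton] at hx
      subst hx
      rcases hxy with rfl | h
      · exact hD _ _ hya hya
      · exact hD _ _ hya h⟩
  have hmin2' : ∀ B' U' : V → Finset V, Outer D B' U' → cost2 D B U ≤ cost2 D B' U' :=
    fun B' U' h => hmin2 (B', U') h
  obtain ⟨⟨X, Y⟩, hI, hmin1⟩ := Set.exists_min_image
    {p : (V → Finset V) × (V → Finset V) | Inner D p.1 p.2} (fun p => cost1 D p.1 p.2)
    (Set.toFinite _) ⟨(meet (Rr D) B, Yc D U), inner_candidate hO⟩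
  have hI' : Inner D X Y := hI
  have h1 : cost1 D X Y ≤ cost1 D (meet (Rr D) B) (Yc D U) :=
    hmin1 (meet (Rr D) B, Yc D U) (inner_candidate hO)
  have h2 := cost1_le hO hD hmin2'
  have h3 := hmin2' _ _ (outer_push hI' hD)
  have h4 := cost2_push hI' hD
  have h5 : ∑ a, hh D (X a) + ∑ b, hh D (Y b) ≤
      ∑ a, hh D (N D (X a)) + ∑ b, hh D (N D (Y b)) := by
    have : cost1 D X Y = ∑ a, hh D (X a) + ∑ b, hh D (Y b) := rfl
    linarith
  -- hence all rows are closed
  have hX : ∀ a, N D (X a) = X a := by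
    intro a
    by_contra hne
    have e1 : ∑ a, hh D (N D (X a)) < ∑ a, hh D (X a) :=
      sum_lt_sum (fun a _ => hG' (X a)) ⟨a, mem_univ _, hG _ hne⟩
    have e2 : ∑ b, hh D (N D (Y b)) ≤ ∑ b, hh D (Y b) := sum_le_sum fun b _ => hG' (Y b)
    linarith
  have hY : ∀ b, N D (Y b) = Y b := by
    intro b
    by_contra hne
    have e1 : ∑ b, hh D (N D (Y b)) < ∑ b, hh D (Y b) :=
      sum_lt_sum (fun a _ => hG' (Y a)) ⟨b, mem_univ _, hG _ hne⟩
    have e2 : ∑ a, hh D (N D (X a)) ≤ ∑ a, hh D (X a) := sum_le_sum fun a _ => hG' (X a)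
    linarith
  -- a minimal nonempty closed set
  obtain ⟨C, hC, hCmin⟩ := exists_min_image
    (univ.filter (fun C : Finset V => C.Nonempty ∧ N D C = C)) (fun C => C.card)
    ⟨univ, mem_filter.2 ⟨mem_univ _, univ_nonempty, subset_antisymm (subset_univ _)
      (subset_N D _)⟩⟩
  rw [mem_filter] at hC
  obtain ⟨-, ⟨b, hb⟩, hCN⟩ := hC
  obtain ⟨b', hbb'⟩ := hout b
  have hb' : b' ∈ C := by
    rw [← hCN]
    exact mem_N.2 ⟨b, hb, Or.inr hbb'⟩
  have hcl : N D (C ∩ Y b') = C ∩ Y b' := by
    refine subset_antisymm ?_ (subset_N D _)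
    intro x hx
    refine mem_inter.2 ⟨?_, ?_⟩
    · rw [← hCN]
      exact N_mono inter_subset_left hx
    · rw [← hY b']
      exact N_mono inter_subset_right hx
  have hcard := hCmin (C ∩ Y b') (mem_filter.2 ⟨mem_univ _, ⟨b', mem_inter.2 ⟨hb', hI'.sy b'⟩⟩, hcl⟩)
  have hCY : C ∩ Y b' = C := eq_of_subset_of_card_le inter_subset_left hcard
  have hbY : b ∈ Y b' := by
    have : b ∈ C ∩ Y b' := by rw [hCY]; exact hb
    exact (mem_inter.1 this).2
  have h6 := hI'.orth b b' (mem_N.2 ⟨b, hI'.sx b, Or.inr hbb'⟩) (subset_N D _ hbY)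
  subst h6
  exact hD b b hbb' hbb'

end Vale.Agent.P038.H177
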