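import Mathlib

/-!
# The gap inequality (helper787's proof), for a submodular function on the subsets of a finite type
-/

set_option autoImplicit false
set_option linter.unusedSectionVars false

open Finset

namespace Vale.Agent.P038.H177

variable {V : Type*} [Fintype V] [DecidableEq V]

open scoped Classical in
/-- Intersection of the rows `B a` over the `a` with `R a z`. -/
noncomputable def meet (R : V → V → Prop) (B : V → Finset V) (z : V) : Finset V :=
  univ.filter (fun x => ∀ a, R a z → x ∈ B a)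

theorem mem_meet {R : V → V → Prop} {B : V → Finset V} {z x : V} :
    x ∈ meet R B z ↔ ∀ a, R a z → x ∈ B a := by
  simp [meet]

/-- `Y` is admissible between `P` and `Q`, containing `W ∩ Q`. -/
def Adm (P Q W Y : Finset V) : Prop := P ⊆ Y ∧ W ∩ Q ⊆ Y ∧ Y ⊆ Q

theorem exists_k (h : Finset V → ℤ) : ∃ k : Finset V → Finset V → Finset V → ℤ,
    ∀ P Q W, P ⊆ Q → (∃ Y, Adm P Q W Y ∧ h Y = k P Q W) ∧ ∀ Y, Adm P Q W Y → k P Q W ≤ h Y := by
  classical
  have key : ∀ P Q W : Finset V, ∃ t : ℤ, P ⊆ Q →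
      (∃ Y, Adm P Q W Y ∧ h Y = t) ∧ ∀ Y, Adm P Q W Y → t ≤ h Y := by
    intro P Q W
    by_cases hPQ : P ⊆ Q
    · have hne : (univ.filter (fun Y => Adm P Q W Y)).Nonempty :=
        ⟨Q, mem_filter.2 ⟨mem_univ _, hPQ, inter_subset_right, subset_rfl⟩⟩
      obtain ⟨Y, hY, hmin⟩ := exists_min_image _ h hne
      rw [mem_filter] at hY
      exact ⟨h Y, fun _ => ⟨⟨Y, hY.2, rfl⟩, fun Z hZ => hmin Z (by simp [hZ])⟩⟩
    · exact ⟨0, fun h => absurd h hPQ⟩
  choose k hk using key
  exact ⟨k, hk⟩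

open scoped Classical in
theorem gap_step (R : V → V → Prop) (h : Finset V → ℤ)
    (hsub : ∀ X Y, h (X ∪ Y) + h (X ∩ Y) ≤ h X + h Y) (B U : V → Finset V)
    (hBU : ∀ a, B a ⊆ U a)
    (hC : ∀ (b : V) (S : Finset V), (∀ a ∈ S, b ∈ U a ∧ b ∉ B a) →
      S.card ≤ (univ.filter (fun z => (∃ a ∈ S, R a z) ∧ b ∈ meet R U z)).card)
    (k : Finset V → Finset V → Finset V → ℤ)
    (hk : ∀ P Q W, P ⊆ Q → (∃ Y, Adm P Q W Y ∧ h Y = k P Q W) ∧ ∀ Y, Adm P Q W Y → k P Q W ≤ h Y)
    (b : V) (W : Finset V) :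
    ∑ a, (k (B a) (U a) (insert b W) - k (B a) (U a) W) ≤
      ∑ z, (k (meet R B z) (meet R U z) (insert b W) - k (meet R B z) (meet R U z) W) := by
  have hmM : ∀ z, meet R B z ⊆ meet R U z := fun z x hx =>
    mem_meet.2 fun a ha => hBU a (mem_meet.1 hx a ha)
  have hmono : ∀ P Q : Finset V, P ⊆ Q → k P Q W ≤ k P Q (insert b W) := by
    intro P Q hPQ
    obtain ⟨⟨Y, hY, hYk⟩, -⟩ := hk P Q (insert b W) hPQ
    rw [← hYk]
    exact (hk P Q W hPQ).2 Y ⟨hY.1, (inter_subset_inter_right (subset_insert b W)).trans hY.2.1,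
      hY.2.2⟩
  have hzero : ∀ a, ¬ (b ∈ U a ∧ b ∉ B a) →
      k (B a) (U a) (insert b W) - k (B a) (U a) W = 0 := by
    intro a ha
    have h1 : k (B a) (U a) (insert b W) ≤ k (B a) (U a) W := by
      obtain ⟨⟨Y, hY, hYk⟩, -⟩ := hk (B a) (U a) W (hBU a)
      rw [← hYk]
      refine (hk (B a) (U a) (insert b W) (hBU a)).2 Y ⟨hY.1, ?_, hY.2.2⟩
      intro x hx
      rw [mem_inter, mem_insert] at hx
      rcases hx with ⟨hx1 | hx1, hx2⟩
      · subst hx1
        by_contra hxY
        exact ha ⟨hx2, fun hxB => hxY (hY.1 hxB)⟩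
      · exact hY.2.1 (mem_inter.2 ⟨hx1, hx2⟩)
    have h2 := hmono (B a) (U a) (hBU a)
    linarith
  have hcmp : ∀ a z, R a z → b ∈ meet R U z →
      k (B a) (U a) (insert b W) - k (B a) (U a) W ≤
        k (meet R B z) (meet R U z) (insert b W) - k (meet R B z) (meet R U z) W := by
    intro a z haz hb
    obtain ⟨⟨Y, hY, hYk⟩, -⟩ := hk (meet R B z) (meet R U z) (insert b W) (hmM z)
    obtain ⟨⟨Y', hY', hYk'⟩, -⟩ := hk (B a) (U a) W (hBU a)
    have hMU : meet R U z ⊆ U a := fun x hx => mem_meet.1 hx a haz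
    have hmB : meet R B z ⊆ B a := fun x hx => mem_meet.1 hx a haz
    have h1 := (hk (B a) (U a) (insert b W) (hBU a)).2 (Y ∪ Y')
      ⟨hY'.1.trans subset_union_right, by
        intro x hx
        rw [mem_inter, mem_insert] at hx
        rcases hx with ⟨hx1 | hx1, hx2⟩
        · subst hx1
          exact mem_union_left _ (hY.2.1 (mem_inter.2 ⟨mem_insert_self _ _, hb⟩))
        · exact mem_union_right _ (hY'.2.1 (mem_inter.2 ⟨hx1, hx2⟩)),
        union_subset (hY.2.2.trans hMU) hY'.2.2⟩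
    have h2 := (hk (meet R B z) (meet R U z) W (hmM z)).2 (Y ∩ Y')
      ⟨subset_inter hY.1 (hmB.trans hY'.1), by
        intro x hx
        rw [mem_inter] at hx
        refine mem_inter.2 ⟨hY.2.1 (mem_inter.2 ⟨mem_insert_of_mem hx.1, hx.2⟩),
          hY'.2.1 (mem_inter.2 ⟨hx.1, hMU hx.2⟩)⟩,
        inter_subset_left.trans hY.2.2⟩
    have h3 := hsub Y Y'
    linarith
  -- Hall
  obtain ⟨f, hfi, hf⟩ := (Finset.all_card_le_biUnion_card_iff_exists_injective
    (fun a : {a // b ∈ U a ∧ b ∉ B a} => univ.filter (fun z => R a z ∧ b ∈ meet R U z))).1 (by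
      intro s
      have h1 := hC b (s.map (Function.Embedding.subtype _)) (by
        intro a ha
        rw [mem_map] at ha
        obtain ⟨x, -, rfl⟩ := ha
        exact x.2)
      rw [card_map] at h1
      refine h1.trans (card_le_card ?_)
      intro z hz
      rw [mem_filter] at hz
      obtain ⟨-, ⟨a, ha, haz⟩, hb⟩ := hz
      rw [mem_map] at ha
      obtain ⟨x, hx, rfl⟩ := ha
      exact mem_biUnion.2 ⟨x, hx, mem_filter.2 ⟨mem_univ _, haz, hb⟩⟩)
  set α : V → ℤ := fun a => k (B a) (U a) (insert b W) - k (B a) (U a) W with hα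
  set γ : V → ℤ := fun z =>
    k (meet R B z) (meet R U z) (insert b W) - k (meet R B z) (meet R U z) W with hγ
  have hγ0 : ∀ z, 0 ≤ γ z := fun z => sub_nonneg.2 (hmono _ _ (hmM z))
  calc ∑ a, α a = ∑ a ∈ univ.filter (fun a => b ∈ U a ∧ b ∉ B a), α a := by
        refine (sum_subset (subset_univ _) fun a _ ha => ?_).symm
        rw [mem_filter, not_and] at ha
        exact hzero a (ha (mem_univ _))
    _ = ∑ a : {a // b ∈ U a ∧ b ∉ B a}, α a :=
        Finset.sum_subtype _ (fun x => by simp) _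
    _ ≤ ∑ a : {a // b ∈ U a ∧ b ∉ B a}, γ (f a) := by
        refine sum_le_sum fun a _ => ?_
        have h1 := mem_filter.1 (hf a)
        exact hcmp a (f a) h1.2.1 h1.2.2
    _ = ∑ z ∈ univ.map ⟨f, hfi⟩, γ z := by rw [sum_map]; rfl
    _ ≤ ∑ z, γ z := sum_le_sum_of_subset_of_nonneg (subset_univ _) fun z _ _ => hγ0 z

open scoped Classical in
/-- The gap inequality. -/
theorem gap (R : V → V → Prop) (h : Finset V → ℤ)
    (hsub : ∀ X Y, h (X ∪ Y) + h (X ∩ Y) ≤ h X + h Y) (B U : V → Finset V)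
    (hBU : ∀ a, B a ⊆ U a) (hR : ∀ a Y, B a ⊆ Y → Y ⊆ U a → h (B a) ≤ h Y)
    (hC : ∀ (b : V) (S : Finset V), (∀ a ∈ S, b ∈ U a ∧ b ∉ B a) →
      S.card ≤ (univ.filter (fun z => (∃ a ∈ S, R a z) ∧ b ∈ meet R U z)).card) :
    ∑ a, (h (U a) - h (B a)) ≤ ∑ z, (h (meet R U z) - h (meet R B z)) := by
  obtain ⟨k, hk⟩ := exists_k h
  have hmM : ∀ z, meet R B z ⊆ meet R U z := fun z x hx =>
    mem_meet.2 fun a ha => hBU a (mem_meet.1 hx a ha)
  have main : ∀ W : Finset V, ∑ a, (k (B a) (U a) W - k (B a) (U a) ∅) ≤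
      ∑ z, (k (meet R B z) (meet R U z) W - k (meet R B z) (meet R U z) ∅) := by
    intro W
    induction W using Finset.induction_on with
    | empty => simp
    | insert b W _ ih =>
      have h1 := gap_step R h hsub B U hBU hC k hk b W
      simp only [sum_sub_distrib] at h1 ih ⊢
      linarith
  have htop : ∀ P Q : Finset V, P ⊆ Q → k P Q univ = h Q := by
    intro P Q hPQ
    obtain ⟨⟨Y, hY, hYk⟩, -⟩ := hk P Q univ hPQ
    have : Y = Q := subset_antisymm hY.2.2 (by
      have := hY.2.1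
      rwa [univ_inter] at this)
    rw [← hYk, this]
  have hbot : ∀ P Q : Finset V, P ⊆ Q → k P Q ∅ ≤ h P := fun P Q hPQ =>
    (hk P Q ∅ hPQ).2 P ⟨subset_rfl, by simp, hPQ⟩
  -- the meets are row-minimal
  have hm : ∀ z Y, meet R B z ⊆ Y → Y ⊆ meet R U z → h (meet R B z) ≤ h Y := by
    intro z Y h1 h2
    have step : ∀ T : Finset V, (∀ a ∈ T, R a z) →
        h (Y.filter (fun x => ∀ a ∈ T, x ∈ B a)) ≤ h Y := by
      intro T
      induction T using Finset.induction_on with
      | empty => intro _; simp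
      | insert a T _ ih =>
        intro hT
        have ih := ih fun a ha => hT a (mem_insert_of_mem ha)
        set Y' := Y.filter (fun x => ∀ a ∈ T, x ∈ B a) with hY'
        have e1 : Y.filter (fun x => ∀ c ∈ insert a T, x ∈ B c) = Y' ∩ B a := by
          ext x
          simp only [hY', mem_filter, mem_inter, mem_insert, forall_eq_or_imp]
          tauto
        have e2 : Y' ∪ B a ⊆ U a := union_subset
          ((filter_subset _ _).trans (h2.trans fun x hx =>
            mem_meet.1 hx a (hT a (mem_insert_self _ _)))) (hBU a)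
        have e3 := hR a (Y' ∪ B a) subset_union_right e2
        have e4 := hsub Y' (B a)
        rw [e1]
        linarith
    have e := step (univ.filter (fun a => R a z)) (fun a ha => (mem_filter.1 ha).2)
    have e1 : Y.filter (fun x => ∀ a ∈ univ.filter (fun a => R a z), x ∈ B a) = meet R B z := by
      ext x
      simp only [mem_filter, mem_univ, true_and, mem_meet]
      exact ⟨fun hx => hx.2, fun hx => ⟨h1 (mem_meet.2 hx), hx⟩⟩
    rwa [e1] at e
  have hbot2 : ∀ z, h (meet R B z) ≤ k (meet R B z) (meet R U z) ∅ := by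
    intro z
    obtain ⟨⟨Y, hY, hYk⟩, -⟩ := hk (meet R B z) (meet R U z) ∅ (hmM z)
    rw [← hYk]
    exact hm z Y hY.1 hY.2.2
  calc ∑ a, (h (U a) - h (B a)) ≤ ∑ a, (k (B a) (U a) univ - k (B a) (U a) ∅) := by
        refine sum_le_sum fun a _ => ?_
        rw [htop _ _ (hBU a)]
        have := hbot _ _ (hBU a)
        linarith
    _ ≤ _ := main univ
    _ ≤ ∑ z, (h (meet R U z) - h (meet R B z)) := by
        refine sum_le_sum fun z _ => ?_
        rw [htop _ _ (hmM z)]
        have := hbot2 z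
        linarith

end Vale.Agent.P038.H177
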