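import Vale.Agent.P038.H177.Cut

/-!
# Seymour's second neighbourhood conjecture

`(G)` (helper294's simultaneous deletion) and the end of the proof.
-/

set_option autoImplicit false
set_option linter.unusedSectionVars false

open Finset

namespace Vale.Agent.P038.H177

variable {V : Type*} [Fintype V] [DecidableEq V]

open scoped Classical in
/-- First out-neighbourhood. -/
noncomputable def O1 (D : V → V → Prop) (v : V) : Finset V := univ.filter (fun u => D v u)

open scoped Classical in
/-- Second out-neighbourhood. -/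
noncomputable def O2 (D : V → V → Prop) (v : V) : Finset V :=
  univ.filter (fun w => w ≠ v ∧ ¬ D v w ∧ ∃ u, D v u ∧ D u w)

theorem mem_O1 {D : V → V → Prop} {v u : V} : u ∈ O1 D v ↔ D v u := by simp [O1]

theorem mem_O2 {D : V → V → Prop} {v w : V} :
    w ∈ O2 D v ↔ w ≠ v ∧ ¬ D v w ∧ ∃ u, D v u ∧ D u w := by simp [O2]

/-- A counterexample to the conjecture. -/
def CE (D : V → V → Prop) : Prop :=
  (∀ u v, D u v → ¬ D v u) ∧ ∀ v, (O2 D v).card < (O1 D v).card

open scoped Classical in
/-- The set of arcs. -/
noncomputable def arcSet (D : V → V → Prop) : Finset (V × V) :=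
  univ.filter (fun p : V × V => D p.1 p.2)

theorem mem_arcSet {D : V → V → Prop} {p : V × V} : p ∈ arcSet D ↔ D p.1 p.2 := by simp [arcSet]

/-- Number of arcs. -/
noncomputable def arcs (D : V → V → Prop) : ℕ := (arcSet D).card

/-- `(G)`: in an arc-minimal counterexample every set expands strictly. -/
theorem G_of_min {D : V → V → Prop} (hCE : CE D) (hmin : ∀ E : V → V → Prop, CE E → arcs D ≤ arcs E)
    (X : Finset V) (hX : N D X ≠ X) : hh D (N D X) < hh D X := by
  classical
  obtain ⟨hD, hF⟩ := hCE
  set L := N D X \ X with hL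
  have hLne : L.Nonempty := by
    rw [hL, sdiff_nonempty]
    exact fun h => hX (subset_antisymm h (subset_N D X))
  by_contra hcon
  push Not at hcon
  -- the function `d`
  set d : Finset V → ℤ := fun T => ((N D T \ X).card : ℤ) - 2 * T.card with hd
  have hdL : 0 ≤ d L := by
    have e1 : N D (N D X) = X ∪ L ∪ (N D L \ X) := by
      have e2 : N D X = X ∪ L := by rw [hL, union_sdiff_of_subset (subset_N D X)]
      conv_lhs => rw [e2, N_union]
      rw [e2]
      ext x
      simp only [mem_union, mem_sdiff]
      tauto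
    have e3 : L ⊆ N D L \ X := fun x hx => mem_sdiff.2 ⟨subset_N D L hx, (mem_sdiff.1 hx).2⟩
    have e4 : N D (N D X) = X ∪ (N D L \ X) := by
      rw [e1, union_assoc, union_eq_right.2 e3]
    have e5 : (N D (N D X)).card = X.card + (N D L \ X).card := by
      rw [e4, card_union_of_disjoint disjoint_sdiff]
    have e6 : (N D X).card = X.card + L.card := by
      have e2 : N D X = X ∪ L := by rw [hL, union_sdiff_of_subset (subset_N D X)]
      rw [e2, card_union_of_disjoint (by rw [hL]; exact disjoint_sdiff)]
    unfold hh at hcon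
    have e5' : ((N D (N D X)).card : ℤ) = X.card + (N D L \ X).card := by exact_mod_cast e5
    have e6' : ((N D X).card : ℤ) = X.card + L.card := by exact_mod_cast e6
    simp only [hd]
    linarith
  -- the minimiser among the proper subsets of `L`
  obtain ⟨T, hT, hTmin⟩ := exists_min_image (L.powerset.filter (fun T => T ≠ L)) d
    ⟨∅, mem_filter.2 ⟨empty_mem_powerset L, fun h => hLne.ne_empty h.symm⟩⟩
  rw [mem_filter, mem_powerset] at hT
  obtain ⟨hTL, hTne⟩ := hT
  have hd0 : d T ≤ 0 := by
    have := hTmin ∅ (mem_filter.2 ⟨empty_mem_powerset L, fun h => hLne.ne_empty h.symm⟩)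
    have e : d ∅ = 0 := by simp [hd, N]
    linarith
  have hTall : ∀ S, S ⊆ L → d T ≤ d S := by
    intro S hS
    by_cases h : S = L
    · subst h; linarith
    · exact hTmin S (mem_filter.2 ⟨mem_powerset.2 hS, h⟩)
  -- the deleted graph
  set E : V → V → Prop := fun y z => D y z ∧ (y ∈ X → z ∈ X ∪ T) with hE
  have hED : ∀ y z, E y z → D y z := fun y z h => h.1
  have hEor : ∀ u v, E u v → ¬ E v u := fun u v h h' => hD u v h.1 h'.1
  have hEF : ∀ y, (O2 E y).card < (O1 E y).card := by
    intro y
    by_cases hy : y ∈ X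
    · set Dy := O1 D y \ (X ∪ T) with hDy
      have hDyL : Dy ⊆ L := by
        intro z hz
        rw [hDy, mem_sdiff, mem_O1, mem_union, not_or] at hz
        exact mem_sdiff.2 ⟨mem_N.2 ⟨y, hy, Or.inr hz.1⟩, hz.2.1⟩
      have hDyT : Disjoint T Dy := by
        rw [disjoint_left]
        intro z hz hz'
        rw [hDy, mem_sdiff, mem_union, not_or] at hz'
        exact hz'.2.2 hz
      set Ey := N D Dy \ (N D T ∪ X) with hEy
      have e1 : O1 E y = O1 D y \ Dy := by
        ext z
        rw [mem_O1, mem_sdiff, mem_O1, hDy, mem_sdiff, mem_O1]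
        simp only [hE]
        tauto
      have e1c : (O1 E y).card + Dy.card = (O1 D y).card := by
        rw [e1]
        exact card_sdiff_add_card_eq_card sdiff_subset
      have e2 : O2 E y ∪ Ey ⊆ O2 D y ∪ Dy := by
        intro z hz
        rw [mem_union] at hz ⊢
        rcases hz with hz | hz
        · obtain ⟨hzy, hnE, u, hu, huz⟩ := mem_O2.1 hz
          by_cases hyz : D y z
          · right
            rw [hDy, mem_sdiff, mem_O1]
            refine ⟨hyz, fun hmem => hnE ⟨hyz, fun _ => hmem⟩⟩
          · left
            exact mem_O2.2 ⟨hzy, hyz, u, hu.1, huz.1⟩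
        · rw [hEy, mem_sdiff, mem_union, not_or] at hz
          obtain ⟨hzN, hzT, hzX⟩ := hz
          obtain ⟨c, hc, hcz⟩ := mem_N.1 hzN
          have hyc : D y c := by
            rw [hDy, mem_sdiff, mem_O1] at hc
            exact hc.1
          rcases hcz with rfl | hcz
          · exact Or.inr hc
          · by_cases hyz : D y z
            · right
              rw [hDy, mem_sdiff, mem_O1, mem_union, not_or]
              exact ⟨hyz, hzX, fun h => hzT (subset_N D T h)⟩
            · left
              exact mem_O2.2 ⟨fun h => hzX (h ▸ hy), hyz, c, hyc, hcz⟩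
      have e3 : Disjoint (O2 E y) Ey := by
        rw [disjoint_left]
        intro z hz hz'
        rw [hEy, mem_sdiff, mem_union, not_or] at hz'
        obtain ⟨-, hzT, hzX⟩ := hz'
        obtain ⟨-, -, u, hu, huz⟩ := mem_O2.1 hz
        rcases mem_union.1 (hu.2 hy) with huX | huT
        · rcases mem_union.1 (huz.2 huX) with h | h
          · exact hzX h
          · exact hzT (subset_N D T h)
        · exact hzT (mem_N.2 ⟨u, huT, Or.inr huz.1⟩)
      have e4 : (O2 E y).card + Ey.card ≤ (O2 D y).card + Dy.card := by
        rw [← card_union_of_disjoint e3]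
        exact (card_le_card e2).trans (card_union_le _ _)
      have e5 : (N D (T ∪ Dy) \ X).card = (N D T \ X).card + Ey.card := by
        have : N D (T ∪ Dy) \ X = (N D T \ X) ∪ Ey := by
          rw [N_union]
          ext x
          simp only [hEy, mem_sdiff, mem_union]
          tauto
        rw [this, card_union_of_disjoint]
        rw [disjoint_left]
        intro x hx hx'
        rw [hEy, mem_sdiff, mem_union, not_or] at hx'
        exact hx'.2.1 (mem_sdiff.1 hx).1
      have e6 : (T ∪ Dy).card = T.card + Dy.card := card_union_of_disjoint hDyT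
      have e7 := hTall (T ∪ Dy) (union_subset hTL hDyL)
      simp only [hd] at e7
      rw [e5, e6] at e7
      push_cast at e7
      have e8 := hF y
      have e9 : 2 * (Dy.card : ℤ) ≤ Ey.card := by linarith
      have e10 : 2 * Dy.card ≤ Ey.card := by exact_mod_cast e9
      omega
    · have e1 : O1 E y = O1 D y := by
        ext z
        rw [mem_O1, mem_O1]
        simp only [hE]
        tauto
      have e2 : O2 E y ⊆ O2 D y := by
        intro z hz
        obtain ⟨hzy, hnE, u, hu, huz⟩ := mem_O2.1 hz
        refine mem_O2.2 ⟨hzy, fun h => hnE ⟨h, fun h' => absurd h' hy⟩, u, hu.1, huz.1⟩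
      rw [e1]
      exact (card_le_card e2).trans_lt (hF y)
  have hle := hmin E ⟨hEor, hEF⟩
  -- but `E` has fewer arcs
  obtain ⟨z, hzL, hzT⟩ := exists_of_ssubset (Finset.ssubset_iff_subset_ne.2 ⟨hTL, hTne⟩)
  obtain ⟨hzN, hzX⟩ := mem_sdiff.1 hzL
  obtain ⟨y, hy, hyz⟩ := mem_N.1 hzN
  have hyz' : D y z := by
    rcases hyz with rfl | h
    · exact absurd hy hzX
    · exact h
  have hlt : arcs E < arcs D := by
    unfold arcs
    refine card_lt_card ?_
    rw [Finset.ssubset_iff_subset_ne]
    refine ⟨fun p hp => mem_arcSet.2 (hED _ _ (mem_arcSet.1 hp)), fun h => ?_⟩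
    have h1 : (y, z) ∈ arcSet D := mem_arcSet.2 hyz'
    rw [← h, mem_arcSet] at h1
    rcases mem_union.1 (h1.2 hy) with h2 | h2
    · exact hzX h2
    · exact hzT h2
  omega

/-- Seymour's second neighbourhood conjecture. -/
theorem snc [Nonempty V] (D : V → V → Prop) (hD : ∀ u v, D u v → ¬ D v u) :
    ∃ v, (O1 D v).card ≤ (O2 D v).card := by
  by_contra hcon
  push Not at hcon
  obtain ⟨E, hE, hmin⟩ := Set.exists_min_image {E : V → V → Prop | CE E} arcs (Set.toFinite _)
    ⟨D, hD, hcon⟩
  have hE' : CE E := hE
  refine no_G hE'.1 (fun v => ?_) (fun X hX => G_of_min hE' (fun E' h => hmin E' h) X hX)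
  have h1 := hE'.2 v
  have h2 : (O1 E v).Nonempty := card_pos.1 (by omega)
  obtain ⟨u, hu⟩ := h2
  exact ⟨u, mem_O1.1 hu⟩

end Vale.Agent.P038.H177
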